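import Vale.Agent.P284.H378.CS
import Vale.Agent.P284.H338.AdS
import Vale.Agent.P284.H619.Core0S
import Vale.Agent.P284.H213.Q.AsmQS

/-!
# P284 (helper501), CORE assembly: interface statements

`LimEStmt`: output of (A'') and of the limit, `q ≥ 1`.  `NSStmt`: output of (NS).  The core theorem
`CoreD D` (helper213) follows from `LimEStmt`, `NSStmt`, `NulStmt` (helper619), `CStmt` (helper378),
`Core0Stmt` (helper619) and `NoFormD D`.
-/

open scoped Manifold ContDiff Topology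
open Filter Set

noncomputable section

namespace Vale.Agent.P284.H501.Core

open Vale.Agent.P272.K Vale.Agent.P284.H894 Vale.Agent.P284.H894.G Vale.Agent.P284.H894.V
  Vale.Agent.P284.H894.W Vale.Agent.P284.H573 Vale.Agent.P284.H213.Grp Vale.Agent.P284.H213.Q
  Vale.Agent.P284.H619 Vale.Agent.P284.H378 Vale.Agent.P284.H998

section
variable {n q : ℕ} {X E Γ W : Type} [TopologicalSpace X] [ChartedSpace (Cm n) X]
  [TopologicalSpace E] [Group Γ] [MulAction Γ E] [NormedAddCommGroup W] [InnerProductSpace ℂ W]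

/-- `Θ` is the relative form of `S = O ∧ Θ` (its values on vertical vectors where `dF` is onto). -/
def IsTh (p : E → X) (F : E → Cm q) (S : E → Chart n X → Cm n [⋀^Fin (q + 1)]→L[ℂ] W)
    (Θ : E → Chart n X → (Cm n →L[ℂ] W)) : Prop :=
  ∀ y (e : Chart n X) f, At e (p y) → H501.Rep p F y e f →
    Function.Surjective (fderiv ℂ f (e (p y))) → ∀ Θ' : Cm n →L[ℂ] W,
    IsW (fderiv ℂ f (e (p y))) (S y e) Θ' → ∀ ξ, fderiv ℂ f (e (p y)) ξ = 0 → Θ y e ξ = Θ' ξ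

/-- `S` is a nonzero closed equivariant relative form with flat energy. -/
structure SRel (p : E → X) (F : E → Cm q) (π : Γ →* (W ≃ₗᵢ[ℂ] W))
    (S : E → Chart n X → Cm n [⋀^Fin (q + 1)]→L[ℂ] W) (Θ : E → Chart n X → (Cm n →L[ℂ] W)) :
    Prop where
  rel : RelS p F S
  /-- `S` is closed (as in `H338.SDat`) -/
  closed : ∀ y e (s : Cm n → Cm n [⋀^Fin (q + 1)]→L[ℂ] W), At e (p y) →
    AnalyticAt ℂ s (e (p y)) → (∀ᶠ y' in 𝓝 y, S y' e = s (e (p y'))) →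
    ∀ᶠ z in 𝓝 (e (p y)), extDeriv s z = 0
  equi : ∀ (g : Γ) y e, At e (p y) → ∀ ξ, S (g • y) e ξ = π g (S y e ξ)
  ne : ∃ y e, At e (p y) ∧ ∃ ξ, S y e ξ ≠ 0
  th : IsTh p F S Θ

end

/-- **Output of (A'') and of the limit**, `q ≥ 1`. -/
def LimEStmt : Prop :=
  ∀ (n : ℕ) (X : Type) [TopologicalSpace X] [T2Space X] [CompactSpace X] [ConnectedSpace X]
    [ChartedSpace (Cm n) X] [IsManifold 𝓘(ℂ, Cm n) ω X]
    (w : Chart n X → Cm n → Matrix (Fin n) (Fin n) ℂ), IsKahler w →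
    ∀ (E Γ : Type) [TopologicalSpace E] [ConnectedSpace E] [Group Γ] [MulAction Γ E]
      (p : E → X), IsGalois Γ p → Folner Γ →
    ∀ (q : ℕ), 1 ≤ q → ∀ (F : E → Cm q) (c : Γ → Cm q) (K : Subgroup Γ), (∃ B, HolB p w F B) →
      (∀ g y, F (g • y) = F y + c g) → (∃ y, Reg (n := n) p F y) → GenConn (n := n) p F →
      NPkg Γ q c K →
    ∃ (W : Type) (_ : NormedAddCommGroup W) (_ : InnerProductSpace ℂ W) (_ : CompleteSpace W)
      (π : Γ →* (W ≃ₗᵢ[ℂ] W)) (S : E → Chart n X → Cm n [⋀^Fin (q + 1)]→L[ℂ] W)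
      (Θ : E → Chart n X → (Cm n →L[ℂ] W)) (M₀ : Set (Cm q)),
      SRel p F π S Θ ∧ (∀ g, (∀ k ∈ K, g * k = k * g) → π g = 1) ∧ IsMeagre M₀ ∧
      ∀ t ∉ M₀, ∃ u : E → W, VPot p F t W Θ u ∧ VEqui p F t K π Θ u

/-- **Output of (NS)**: a form with a good point, or nonzero vectors in all images of `Θ` (on an open
set), or the isotrivial case. -/
def NSStmt : Prop :=
  ∀ (n : ℕ) (X : Type) [TopologicalSpace X] [T2Space X] [CompactSpace X] [ConnectedSpace X]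
    [ChartedSpace (Cm n) X] [IsManifold 𝓘(ℂ, Cm n) ω X]
    (w : Chart n X → Cm n → Matrix (Fin n) (Fin n) ℂ), IsKahler w →
    ∀ (E Γ : Type) [TopologicalSpace E] [ConnectedSpace E] [Group Γ] [MulAction Γ E]
      (p : E → X), IsGalois Γ p →
    ∀ (q : ℕ) (F : E → Cm q) (c : Γ → Cm q), (∃ B, HolB p w F B) →
      (∀ g y, F (g • y) = F y + c g) → (∃ y, Reg (n := n) p F y) →
    ∀ (W : Type) [NormedAddCommGroup W] [InnerProductSpace ℂ W] [CompleteSpace W]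
      (π : Γ →* (W ≃ₗᵢ[ℂ] W)) (S : E → Chart n X → Cm n [⋀^Fin (q + 1)]→L[ℂ] W)
      (Θ : E → Chart n X → (Cm n →L[ℂ] W)), SRel p F π S Θ →
    (∃ (R m : ℕ) (_ : 1 ≤ R) (_ : 1 ≤ m) (H : Type) (_ : NormedAddCommGroup H)
      (_ : InnerProductSpace ℂ H) (_ : CompleteSpace H)
      (v : E → Chart n X → (Fin R → Cm n) → H) (y : E), HForm n R m p H v ∧ GoodAt p R m v y) ∨
    (∃ O : Set E, IsOpen O ∧ O.Nonempty ∧ ∀ y₀ ∈ O, ∃ a : W, a ≠ 0 ∧
      ∀ᶠ y in 𝓝 y₀, F y = F y₀ → ∃ e, At e (p y) ∧ ∃ ξ ∈ VS p F y e, Θ y e ξ = a) ∨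
    (∃ (r s k m : ℕ) (H : Type) (_ : NormedAddCommGroup H)
      (_ : InnerProductSpace ℂ H) (_ : CompleteSpace H)
      (v : E → Chart n X → (Fin (q + r) → Cm n) → H) (U : Γ → (H →ₗᵢ[ℂ] H))
      (N : Cm k →L[ℂ] Cm q) (𝒢 : Set E), IsoE s p F m v U π Θ N 𝒢)

/-- **Output of (NS)**, form with the leaf data in all cases (`k = 0` is the case of full rank): nonzero
vectors in all images of `Θ` (on an open set), or the data of `H378.LeafE`. -/
def NS2Stmt : Prop :=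
  ∀ (n : ℕ) (X : Type) [TopologicalSpace X] [T2Space X] [CompactSpace X] [ConnectedSpace X]
    [ChartedSpace (Cm n) X] [IsManifold 𝓘(ℂ, Cm n) ω X]
    (w : Chart n X → Cm n → Matrix (Fin n) (Fin n) ℂ), IsKahler w →
    ∀ (E Γ : Type) [TopologicalSpace E] [ConnectedSpace E] [Group Γ] [MulAction Γ E]
      (p : E → X), IsGalois Γ p →
    ∀ (q : ℕ) (F : E → Cm q) (c : Γ → Cm q), (∃ B, HolB p w F B) →
      (∀ g y, F (g • y) = F y + c g) → (∃ y, Reg (n := n) p F y) →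
    ∀ (W : Type) [NormedAddCommGroup W] [InnerProductSpace ℂ W] [CompleteSpace W]
      (π : Γ →* (W ≃ₗᵢ[ℂ] W)) (S : E → Chart n X → Cm n [⋀^Fin (q + 1)]→L[ℂ] W)
      (Θ : E → Chart n X → (Cm n →L[ℂ] W)), SRel p F π S Θ →
    (∃ O : Set E, IsOpen O ∧ O.Nonempty ∧ ∀ y₀ ∈ O, ∃ a : W, a ≠ 0 ∧
      ∀ᶠ y in 𝓝 y₀, F y = F y₀ → ∃ e, At e (p y) ∧ ∃ ξ ∈ VS p F y e, Θ y e ξ = a) ∨
    (∃ (r s k m : ℕ) (H : Type) (_ : NormedAddCommGroup H)
      (_ : InnerProductSpace ℂ H) (_ : CompleteSpace H)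
      (v : E → Chart n X → (Fin (q + (r + 1)) → Cm n) → H) (U : Γ → (H →ₗᵢ[ℂ] H))
      (N : Cm k →L[ℂ] Cm q) (𝒢 : Set E), 𝒢.Nonempty ∧ LeafE s p F m v U π Θ N 𝒢)

/-- no covering of a manifold of the class `D` carries a natural form with a good point -/
def NoFormD (D : Cls) : Prop :=
  ∀ (n : ℕ) (X : Type) [TopologicalSpace X] [T2Space X] [CompactSpace X] [ConnectedSpace X]
    [ChartedSpace (Cm n) X] [IsManifold 𝓘(ℂ, Cm n) ω X] (ι : Type) [Fintype ι] (_ : PJ n X ι)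
    (_ : D n X) (E Γ : Type) [TopologicalSpace E] [ConnectedSpace E] [Group Γ] [MulAction Γ E]
    (p : E → X), IsGalois Γ p → ∀ (R m : ℕ), 1 ≤ R → 1 ≤ m →
    ∀ (H : Type) [NormedAddCommGroup H] [InnerProductSpace ℂ H] [CompleteSpace H]
      (v : E → Chart n X → (Fin R → Cm n) → H), HForm n R m p H v → ∀ y, ¬ GoodAt p R m v y

end Vale.Agent.P284.H501.Core
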