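import Vale.Agent.P284.H501.Core.Lim0
import Vale.Agent.P284.H366.LimF

/-!
# P284 (helper501): the limit for all `q` from the potentials
-/

namespace Vale.Agent.P284.H501.Core

/-- **The limit for all `q`**, from the potentials (`H366.PotS`). -/
theorem limAt_of_pot (h : H366.PotS) (q : ℕ) : LimAt q := by
  rcases Nat.eq_zero_or_pos q with rfl | hq
  · exact limAt_zero_of_pot h
  · exact limAt_pos (H366.limEStmt_of_pot h) hq

end Vale.Agent.P284.H501.Core
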