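import Vale.Agent.P284.H501.Core.Uni
import Vale.Agent.P284.H573.PT.PotS
import Vale.Agent.P284.H812.NSF18
import Vale.Agent.P284.H378.Fin

/-!
# P284 (helper501): the core, without hypotheses
-/

noncomputable section

namespace Vale.Agent.P284.H501.Core

open Vale.Agent.P284.H213.Q Vale.Agent.P284.H837 Vale.Agent.P284.H998

/-- **CORE** for every class without natural forms -/
theorem coreD {D : Cls} (hD : NoFormD D) : CoreD D :=
  coreD_of H573.PT.limAt H812.NSF.ns2 H378.cStmt hD

/-- **CORE** for special manifolds, from `SpStmt` -/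
theorem coreSp (hSp : SpStmt) : CoreSpStmt :=
  coreSp_of H573.PT.limAt H812.NSF.ns2 H378.cStmt H378.lfStmt hSp

end Vale.Agent.P284.H501.Core
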