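import Vale.Agent.P284.H501.Core.Asm
import Vale.Agent.P284.H837.SpS

/-!
# P284 (helper501): local finiteness in the form of helper837 from helper378's LF (`k = 0`)
-/

open scoped Manifold ContDiff Topology
open Filter Set Metric

noncomputable section

namespace Vale.Agent.P284.H501.Core

open Vale.Agent.P272.K Vale.Agent.P284.H894 Vale.Agent.P284.H894.G Vale.Agent.P284.H894.V
  Vale.Agent.P284.H894.W Vale.Agent.P284.H573 Vale.Agent.P284.H213.Grp Vale.Agent.P284.H213.Q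
  Vale.Agent.P284.H619 Vale.Agent.P284.H378 Vale.Agent.P284.H998 Vale.Agent.P284.H395
  Vale.Agent.P284.H837

section
variable {n R q m : ℕ} {X E Γ H : Type} [TopologicalSpace X] [ChartedSpace (Cm n) X]
  [TopologicalSpace E] [NormedAddCommGroup H] [InnerProductSpace ℂ H] {p : E → X}
  {v : E → Chart n X → (Fin R → Cm n) → H}

/-- `v` does not vanish near a point with a normal form -/
theorem nz_near (hp : IsCoveringMap p) (hv : HForm n R m p H v) {y₀ : E} {e : Chart n X}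
    {b : Cm n → Cm R} {γ : Cm R → H} (h : IsNF m p v y₀ e b γ) : ∀ᶠ y in 𝓝 y₀, NZ p v y := by
  choose ξ hξ using fun j : Fin R => h.bsurj (Pi.single j 1)
  have h1 : v y₀ e ξ = γ (b (e (p y₀))) := by
    rw [h.nf.self_of_nhds ξ]
    have h2 : (Matrix.of fun i j => fderiv ℂ b (e (p y₀)) (ξ j) i) = (1 : Matrix (Fin R) (Fin R) ℂ) := by
      ext i j
      rw [Matrix.of_apply, hξ, Matrix.one_apply, Pi.single_apply]
    rw [h2, Matrix.det_one, one_pow, one_smul]
  obtain ⟨V, hV1, hV2⟩ := hv.hol y₀ e h.mem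
  have h3 : AnalyticAt ℂ (fun z => V (z, ξ)) (e (p y₀)) :=
    AnalyticAt.comp (g := V) (f := fun z => (z, ξ)) (hV1 ξ) (analyticAt_id.prod analyticAt_const)
  have h4 : V (e (p y₀), ξ) ≠ 0 := by
    rw [← hV2.self_of_nhds ξ, h1]
    exact h.imm.1
  have h5 : ∀ᶠ z in 𝓝 (e (p y₀)), V (z, ξ) ≠ 0 := h3.continuousAt.eventually_ne h4
  filter_upwards [hV2, (ep_ev hp.isLocalHomeomorph h.mem).2 h5,
    ep_at hp.isLocalHomeomorph h.mem] with y k1 k2 k3
  exact ⟨e, k3, ξ, by rw [k1 ξ]; exact k2⟩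

/-- compact neighbourhoods in the covering -/
theorem exists_cpt [LocallyCompactSpace X] (hp : IsCoveringMap p) {y₀ : E} {P : E → Prop}
    (hP : ∀ᶠ y in 𝓝 y₀, P y) : ∃ K₀ ∈ 𝓝 y₀, IsCompact K₀ ∧ ∀ y ∈ K₀, P y := by
  obtain ⟨ε, hε, hyε⟩ := hp.isLocalHomeomorph y₀
  have h1 : ∀ᶠ x in 𝓝 (ε y₀), ε.symm x ∈ {y | P y} ∧ x ∈ ε.target := by
    refine (((ε.continuousAt_symm (ε.map_source hε)).eventually ?_)).and
      (ε.open_target.mem_nhds (ε.map_source hε))
    rw [ε.left_inv hε]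
    exact hP
  obtain ⟨C, hC, hCs, hCc⟩ := LocallyCompactSpace.local_compact_nhds (ε y₀) _ h1
  have hCt : C ⊆ ε.target := fun x hx => (hCs hx).2
  refine ⟨ε.symm '' C, ?_, hCc.image_of_continuousOn (ε.continuousOn_symm.mono hCt), ?_⟩
  · have h2 := ε.symm.image_mem_nhds (x := ε y₀) (ε.map_source hε) hC
    rwa [ε.left_inv hε] at h2
  · rintro y ⟨x, hx, rfl⟩
    exact (hCs hx).1

variable [Group Γ] [MulAction Γ E] {F : E → Cm q} {c : Γ → Cm q} {K : Subgroup Γ}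

/-- **LFin** from LF -/
theorem lfin_of (hp : IsCoveringMap p) (hv : HForm n R m p H v)
    (hc : ∀ g y, F (g • y) = F y + c g) (hN : NPkg Γ q c K) (N : Cm 0 →L[ℂ] Cm q)
    (hlf : ∀ (D : LeafDat q R 0 H), (∀ x, D.N x = N) → ∀ S : Subgroup Γ, IsSub c K N S →
      ∃ r₀ > 0, ∀ K₀ : Set E, IsCompact K₀ → (∀ y ∈ K₀, NZ p v y) →
      {a : Γ ⧸ S | ∃ g : Γ, (g : Γ ⧸ S) = a ∧ ∃ y ∈ K₀, ∃ b ∈ ball D.b₀ r₀,
        Sh p v F D (g⁻¹ • y) b}.Finite) : LFin Γ m p v F := by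
  have hNr : ∀ x : Cm q, x ∈ LinearMap.range (N : Cm 0 →ₗ[ℂ] Cm q) ↔ x = 0 := by
    intro x
    constructor
    · rintro ⟨z, rfl⟩
      have : z = 0 := Subsingleton.elim _ _
      rw [this, map_zero]
    · rintro rfl
      exact zero_mem _
  have hS : IsSub c K N (⊥ : Subgroup Γ) := by
    intro g
    rw [Subgroup.mem_bot, hNr]
    constructor
    · rintro rfl
      refine ⟨fun h _ => by rw [one_mul, mul_one], ?_⟩
      have := hN.lat.add 1 1
      rw [mul_one] at this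
      have h2 : c 1 + 0 = c 1 + c 1 := by rw [add_zero]; exact this
      exact (add_left_cancel h2).symm
    · rintro ⟨h1, h2⟩
      have : (K.subgroupOf K).FiniteIndex := by
        rw [Subgroup.subgroupOf_self]
        infer_instance
      exact hN.cent K le_rfl inferInstance g h2 h1
  refine ⟨⊥, fun g hg y => ?_, fun g hg y e _ ξ => ?_, fun y₀ e b γ t h => ?_⟩
  · rw [Subgroup.mem_bot] at hg
    rw [hg, one_smul]
  · rw [Subgroup.mem_bot] at hg
    rw [hg, one_smul]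
  · set D : LeafDat q R 0 H :=
      { b₀ := b (e (p y₀)), γ := γ, t := t, N := fun _ => N, γan := h.nf.γan, imm := h.nf.imm,
        tan := h.tan, Nan := analyticAt_const, inj := fun _ _ _ => Subsingleton.elim _ _ } with hD
    obtain ⟨r₀, hr₀, hfin⟩ := hlf D (fun _ => rfl) ⊥ hS
    have : LocallyCompactSpace X := ChartedSpace.locallyCompactSpace (Cm n) X
    obtain ⟨K₀, hK₀, hK₀c, hK₀z⟩ := exists_cpt hp (nz_near hp hv h.nf)
    refine ⟨r₀, hr₀, K₀, hK₀, (hfin K₀ hK₀c hK₀z).subset ?_⟩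
    rintro a ⟨g, hg, y, hy, x, hx, hsh⟩
    refine ⟨g, hg, y, hy, x, hx, ?_⟩
    obtain ⟨e', β, h1, h2, h3, h4⟩ := hsh
    refine ⟨e', β, h1, h2, h3, ?_⟩
    filter_upwards [h4] with y' h5
    refine ⟨h5.1, ?_⟩
    rw [h5.2]
    show t (β (e' (p y'))) - t (β (e' (p y'))) ∈ _
    rw [sub_self]
    exact zero_mem _

end

end Vale.Agent.P284.H501.Core
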