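import Vale.Agent.P284.H501.Core.Zero
import Vale.Agent.P284.H501.Core.LFin

/-!
# P284 (helper501), CORE assembly, uniform in `q`; the core for special manifolds
-/

open scoped Manifold ContDiff Topology
open Filter Set Metric

noncomputable section

namespace Vale.Agent.P284.H501.Core

open Vale.Agent.P272.K Vale.Agent.P284.H894 Vale.Agent.P284.H894.G Vale.Agent.P284.H894.V
  Vale.Agent.P284.H894.W Vale.Agent.P284.H573 Vale.Agent.P284.H213.Grp Vale.Agent.P284.H213.Q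
  Vale.Agent.P284.H619 Vale.Agent.P284.H378 Vale.Agent.P284.H998 Vale.Agent.P284.H395
  Vale.Agent.P284.H837 Vale.Agent.P284.H625

section
variable {n q : ℕ} {X E Γ : Type} [TopologicalSpace X] [ChartedSpace (Cm n) X]
  [TopologicalSpace E] {p : E → X} {F : E → Cm q}
  {w : Chart n X → Cm n → Matrix (Fin n) (Fin n) ℂ} {B : ℝ}

/-- regular points are dense, all `q` -/
theorem reg_dense' [ConnectedSpace E] [IsManifold 𝓘(ℂ, Cm n) ω X] (hp : IsCoveringMap p) (hF : HolB p w F B)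
    (hex : ∃ y, Reg (n := n) p F y) : Dense {y : E | Reg (n := n) p F y} := by
  rcases Nat.eq_zero_or_pos q with hq | hq
  · subst hq
    have : {y : E | Reg (n := n) p F y} = univ := by
      refine eq_univ_of_forall fun y e f _ _ x => ⟨0, Subsingleton.elim _ _⟩
    rw [this]
    exact dense_univ
  · exact H10.reg_dense hq hp hF hex

end

/-- the data in the case of full rank -/
def LeafOut (n q : ℕ) (X E Γ : Type) [TopologicalSpace X] [ChartedSpace (Cm n) X]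
    [TopologicalSpace E] [Group Γ] [MulAction Γ E] (p : E → X) (F : E → Cm q) (K : Subgroup Γ) :
    Prop :=
  ∃ (W : Type) (_ : NormedAddCommGroup W) (_ : InnerProductSpace ℂ W) (_ : CompleteSpace W)
    (π : Γ →* (W ≃ₗᵢ[ℂ] W)) (Θ : E → Chart n X → (Cm n →L[ℂ] W)) (M₀ : Set (Cm q)) (r m : ℕ)
    (H : Type) (_ : NormedAddCommGroup H) (_ : InnerProductSpace ℂ H) (_ : CompleteSpace H)
    (v : E → Chart n X → (Fin (q + (r + 1)) → Cm n) → H) (U : Γ → (H →ₗᵢ[ℂ] H))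
    (N : Cm 0 →L[ℂ] Cm q) (𝒢 : Set E), IsMeagre M₀ ∧ ThE p F K π Θ M₀ ∧
    (∃ y e, Reg (n := n) p F y ∧ At e (p y) ∧ ∃ ξ ∈ VS p F y e, Θ y e ξ ≠ 0) ∧
    (∀ g, (∀ k ∈ K, g * k = k * g) → π g = 1) ∧ 𝒢.Nonempty ∧
    LeafE (q + (r + 1)) p F m v U π Θ N 𝒢

/-- **CORE**, uniform in `q`: only the case of full rank remains -/
theorem leafOut_of {q : ℕ} (hLim : LimAt q) (hNS : NS2Stmt) (hC : H378.CStmt)
    (n : ℕ) (X : Type) [TopologicalSpace X] [T2Space X] [CompactSpace X] [ConnectedSpace X]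
    [ChartedSpace (Cm n) X] [IsManifold 𝓘(ℂ, Cm n) ω X]
    (w : Chart n X → Cm n → Matrix (Fin n) (Fin n) ℂ) (hw : IsKahler w)
    (E Γ : Type) [TopologicalSpace E] [ConnectedSpace E] [Group Γ] [MulAction Γ E]
    (p : E → X) (hG : IsGalois Γ p) (hFo : Folner Γ) (F : E → Cm q)
    (c : Γ → Cm q) (K : Subgroup Γ) (hF : ∃ B, HolB p w F B)
    (hc : ∀ g y, F (g • y) = F y + c g) (hR : ∃ y, Reg (n := n) p F y)
    (hGC : GenConn (n := n) p F) (hN : NPkg Γ q c K) : LeafOut n q X E Γ p F K := by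
  obtain ⟨B, hFB⟩ := hF
  obtain ⟨W, iW1, iW2, iW3, π, S, Θ, M₀, hS, hπ, hM₀, hpot⟩ :=
    hLim n X w hw E Γ p hG hFo F c K ⟨B, hFB⟩ hc hR hGC hN
  have hThE := thE_of hG hFB hc hS hpot
  have hThn := th_ne hG.cov hFB hR hS
  rcases hNS n X w hw E Γ p hG q F c ⟨B, hFB⟩ hc hR W π S Θ hS with hB | hL
  · exfalso
    obtain ⟨O, hO, hOne, hOa⟩ := hB
    obtain ⟨T, hTc, hTi, hT⟩ := hGC
    obtain ⟨y₁, hy₁O, hy₁⟩ := (reg_dense' hG.cov hFB hR).inter_open_nonempty O hO hOne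
    have h1 : F '' O ∈ 𝓝 (F y₁) := by
      rw [← H885.Ker.reg_map hG.cov hFB hy₁]
      exact Filter.image_mem_map (hO.mem_nhds hy₁O)
    have hTm : IsMeagre T := by
      have : IsNowhereDense T := by
        rw [IsNowhereDense, hTc.closure_eq, hTi]
      exact this.isMeagre
    have h2 : Dense (T ∪ M₀)ᶜ := dense_of_mem_residual (hTm.union hM₀)
    obtain ⟨t, ht1, ht2⟩ := h2.inter_nhds_nonempty h1
    obtain ⟨y₀, hy₀, rfl⟩ := ht2
    have ht : F y₀ ∉ T ∧ F y₀ ∉ M₀ :=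
      ⟨fun h => ht1 (Or.inl h), fun h => ht1 (Or.inr h)⟩
    obtain ⟨a, ha, hev⟩ := hOa y₀ hy₀
    obtain ⟨u, hu1, hu2⟩ := hpot _ ht.2
    have hHE : HolE n p F := fun y e he => by
      obtain ⟨f, h1, h2⟩ := H221.holB_an hFB y he
      exact ⟨f, h2, h1⟩
    exact ha (nulStmt n q X E Γ p hG hFo F c K hHE hc hN (F y₀) (hT _ ht.1).1 (hT _ ht.1).2 W π Θ u
      hu1 hu2 y₀ rfl a hev)
  · obtain ⟨r, s, k, m, H, i1, i2, i3, v, U, N, 𝒢, hne, hL⟩ := hL
    rcases Nat.eq_zero_or_pos k with hk | hk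
    · subst hk
      have hs : q + (r + 1) = s := by simpa using hL.dim
      subst hs
      exact ⟨W, iW1, iW2, iW3, π, Θ, M₀, r, m, H, i1, i2, i3, v, U, N, 𝒢, hM₀, hThE, hThn, hπ,
        hne, hL⟩
    · exfalso
      exact hC n q (r + 1) k s m X w hw E Γ p hG hFo F c K ⟨B, hFB⟩ hc hN hGC hR W H π Θ M₀ hM₀
        hThE hThn hπ v U N 𝒢 { toLeafE := hL, k_pos := hk }

/-- **CORE** for a class `D` -/
theorem coreD_of (hLim : ∀ q, LimAt q) (hNS : NS2Stmt) (hC : H378.CStmt) {D : Cls}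
    (hD : NoFormD D) : CoreD D := by
  intro n X _ _ _ _ _ _ ι _ J hDX w hw E Γ _ _ _ _ p hG hFo q F c K hF hc hR hGC hN
  obtain ⟨W, _, _, _, π, Θ, M₀, r, m, H, _, _, _, v, U, N, 𝒢, -, -, -, -, ⟨y, hy⟩, hL⟩ :=
    leafOut_of (hLim q) hNS hC n X w hw E Γ p hG hFo F c K hF hc hR hGC hN
  exact hD n X ι J hDX E Γ p hG (q + (r + 1)) m (by omega) hL.m_pos H v hL.form y
    (good_of_leaf hL rfl hy)

/-- a special manifold is special -/
theorem special_of {n : ℕ} {X : Type} [TopologicalSpace X] [T2Space X] [CompactSpace X]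
    [ConnectedSpace X] [ChartedSpace (Cm n) X] [IsManifold 𝓘(ℂ, Cm n) ω X] (h : FSp n X) :
    H248.Special n X :=
  h X id (isLocalHomeomorph_iff_isCoveringMap.1 (Homeomorph.refl X).isLocalHomeomorph)
    contMDiff_id

/-- **CORE** for special manifolds -/
theorem coreSp_of (hLim : ∀ q, LimAt q) (hNS : NS2Stmt) (hC : H378.CStmt) (hLF : LFStmt)
    (hSp : SpStmt) : CoreSpStmt := by
  intro n X _ _ _ _ _ _ ι _ J hDX w hw E Γ _ _ _ _ p hG hFo q F c K hF hc hR hGC hN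
  obtain ⟨W, _, _, _, π, Θ, M₀, r, m, H, _, _, _, v, U, N, 𝒢, hM₀, hThE, hThn, hπ, ⟨y, hy⟩, hL⟩ :=
    leafOut_of (hLim q) hNS hC n X w hw E Γ p hG hFo F c K hF hc hR hGC hN
  obtain ⟨B, hFB⟩ := hF
  refine hSp n X ι J (special_of hDX) E Γ p hG q F c (fun y e he => ?_) hc H (q + (r + 1)) m
    (by omega) hL.m_pos v hL.form (fun g => ⟨U g, fun y e he ξ => hL.equi g y e he ξ⟩) ?_ ?_
  · obtain ⟨f, h1, h2⟩ := H221.holB_an hFB y he
    exact ⟨f, h2, h1⟩
  · obtain ⟨e, b, F0, β, γ, τ, h⟩ := hL.chart y hy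
    have hnf : IsNF m p v y e b (fun x => γ (β x)) := by
      refine ⟨h.mem, h.ban, h.bsurj, AnalyticAt.comp (g := γ) (f := β) h.γan h.βan,
        ⟨h.imm.1, fun η a hη => ?_⟩, h.v_eq⟩
      have h1 : fderiv ℂ (fun x => γ (β x)) (b (e (p y))) =
          (fderiv ℂ γ (β (b (e (p y))))).comp (fderiv ℂ β (b (e (p y)))) :=
        fderiv_comp (𝕜 := ℂ) (b (e (p y))) (g := γ) (f := β) h.γan.differentiableAt
          h.βan.differentiableAt
      rw [h1] at hη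
      have h2 := h.imm.2 (fderiv ℂ β (b (e (p y))) η) a hη
      have h3 : Function.Injective (fderiv ℂ β (b (e (p y)))) :=
        (LinearMap.injective_iff_surjective_of_finrank_eq_finrank
          (f := (fderiv ℂ β (b (e (p y))) : Cm (q + (r + 1)) →ₗ[ℂ] Cm (q + (r + 1)))) rfl).2
          h.βsurj
      exact h3 (by rw [h2, map_zero])
    refine ⟨y, e, b, _, tq, hnf, ?_, h.t_eq⟩
    exact (H625.tqL q (r + 1)).analyticAt _
  · refine lfin_of hG.cov hL.form hc hN N fun D hD S hS => ?_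
    exact hLF n q (r + 1) 0 (q + (r + 1)) m X w hw E Γ p hG hFo F c K ⟨B, hFB⟩ hc hN hGC hR W H π Θ
      M₀ hM₀ hThE hThn hπ v U N 𝒢 hL D hD S hS

end Vale.Agent.P284.H501.Core
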