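import Vale.Agent.P284.H501.Core.Spec
import Vale.Agent.P284.H501.ExtF
import Vale.Agent.P284.H338.EReg
import Vale.Agent.P284.H10.S4g
import Vale.Agent.P284.H885.Ker2

/-!
# P284 (helper501), CORE assembly: the relative form `Θ` of `S`
-/

open scoped Manifold ContDiff Topology
open Filter Set

noncomputable section

namespace Vale.Agent.P284.H501.Core

open Vale.Agent.P272.K Vale.Agent.P284.H894 Vale.Agent.P284.H894.G Vale.Agent.P284.H894.V
  Vale.Agent.P284.H894.W Vale.Agent.P284.H573 Vale.Agent.P284.H213.Grp Vale.Agent.P284.H213.Q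
  Vale.Agent.P284.H619 Vale.Agent.P284.H378 Vale.Agent.P284.H998

section
variable {n q : ℕ} {X E Γ W : Type} [TopologicalSpace X] [ChartedSpace (Cm n) X]
  [TopologicalSpace E] {p : E → X} {F : E → Cm q}
  {w : Chart n X → Cm n → Matrix (Fin n) (Fin n) ℂ} {B : ℝ}

theorem rep_exists (hF : HolB p w F B) (y : E) (e : Chart n X) (he : At e (p y)) :
    ∃ f, H501.Rep p F y e f := by
  obtain ⟨f, h1, h2⟩ := H221.holB_an hF y he
  exact ⟨f, h1, h2⟩

theorem reg_freq [ConnectedSpace E] [IsManifold 𝓘(ℂ, Cm n) ω X] (hq : 1 ≤ q)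
    (hp : IsCoveringMap p) (hF : HolB p w F B) (hex : ∃ y, Reg (n := n) p F y) (y : E)
    (e : Chart n X) (f : Cm n → Cm q) (he : At e (p y)) (hf : H501.Rep p F y e f) :
    ∃ᶠ z in 𝓝 (e (p y)), Function.Surjective (fderiv ℂ f z) := by
  have hd := H10.reg_dense hq hp hF hex y
  rw [mem_closure_iff_frequently] at hd
  intro hcon
  have h1 := (ep_ev hp.isLocalHomeomorph he).2 hcon
  obtain ⟨y', hy1, ⟨hy2, hy3⟩, hy4⟩ :=
    (hd.and_eventually ((h1.and (hf.near hp.isLocalHomeomorph he)).and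
      (ep_at hp.isLocalHomeomorph he))).exists
  exact hy2 ((H338.reg_iff hp.isLocalHomeomorph hy4 hy3).1 hy1)

theorem rep_shift [Group Γ] [MulAction Γ E] (hp : IsCoveringMap p) {g : Γ}
    (hpg : ∀ y : E, p (g • y) = p y) (hcg : Continuous fun y : E => g • y) {c : Cm q}
    (hFg : ∀ y, F (g • y) = F y + c) (hrep : ∀ y (e : Chart n X), At e (p y) →
      ∃ f, H501.Rep p F y e f) {y : E} {e : Chart n X} (he : At e (p y)) {f : Cm n → Cm q}
    (hf : H501.Rep p F y e f) : H501.Rep p F (g • y) e (fun z => f z + c) := by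
  refine ⟨by rw [hpg]; exact hf.1.add analyticAt_const, ?_⟩
  have he' : At e (p (g • y)) := by rw [hpg]; exact he
  obtain ⟨f2, hf2⟩ := hrep (g • y) e he'
  have h5 : ∀ᶠ y'' in 𝓝 y, f2 (e (p y'')) = f (e (p y'')) + c := by
    have h6 := (hcg.continuousAt (x := y)).eventually hf2.2
    filter_upwards [h6, hf.2] with y'' h7 h8
    rw [hFg, hpg] at h7
    rw [← h7, h8]
  have h6 : ∀ᶠ z in 𝓝 (e (p y)), f2 z = f z + c := (ep_ev hp.isLocalHomeomorph he).1 h5
  have h7 : ∀ᶠ z in 𝓝 (e (p (g • y))), f2 z = f z + c := by rw [hpg]; exact h6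
  filter_upwards [hf2.2, (ep_ev hp.isLocalHomeomorph he').2 h7] with y'' h8 h9
  rw [h8, h9]

variable [Group Γ] [MulAction Γ E] [NormedAddCommGroup W] [InnerProductSpace ℂ W]
  {π : Γ →* (W ≃ₗᵢ[ℂ] W)} {S : E → Chart n X → Cm n [⋀^Fin (q + 1)]→L[ℂ] W}
  {Θ : E → Chart n X → (Cm n →L[ℂ] W)}

/-- pull-back of `S = O ∧ Θ` under a change of charts -/
theorem isW_chart [IsManifold 𝓘(ℂ, Cm n) ω X] (hp : IsLocalHomeomorph p) (hS : FormE p S)
    {y : E} {e e' : Chart n X}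
    (he : At e (p y)) (he' : At e' (p y)) {f' : Cm n → Cm q} (hf' : H501.Rep p F y e' f')
    {Θ' : Cm n →L[ℂ] W} (h : IsW (fderiv ℂ f' (e' (p y))) (S y e') Θ') :
    H501.Rep p F y e (fun z => f' (e' (e.symm z))) ∧
    fderiv ℂ (fun z => f' (e' (e.symm z))) (e (p y)) =
      (fderiv ℂ f' (e' (p y))).comp (fderiv ℂ (fun z => e' (e.symm z)) (e (p y))) ∧
    IsW (fderiv ℂ (fun z => f' (e' (e.symm z))) (e (p y))) (S y e)
      (Θ'.comp (fderiv ℂ (fun z => e' (e.symm z)) (e (p y)))) := by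
  have hτa : AnalyticAt ℂ (fun z => e' (e.symm z)) (e (p y)) := (transition he he').analyticAt
  have hτy : e' (e.symm (e (p y))) = e' (p y) := by rw [e.left_inv he.2]
  have hr : H501.Rep p F y e (fun z => f' (e' (e.symm z))) := by
    refine ⟨AnalyticAt.comp (g := f') (f := fun z => e' (e.symm z))
      (by rw [hτy]; exact hf'.1) hτa, ?_⟩
    filter_upwards [hf'.2, ep_at hp he] with y'' h4 h5
    rw [h4, e.left_inv h5.2]
  have hD : fderiv ℂ (fun z => f' (e' (e.symm z))) (e (p y)) =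
      (fderiv ℂ f' (e' (p y))).comp (fderiv ℂ (fun z => e' (e.symm z)) (e (p y))) := by
    have e3 := fderiv_comp (𝕜 := ℂ) (e (p y)) (g := f') (f := fun z => e' (e.symm z))
      (by rw [hτy]; exact hf'.1.differentiableAt) hτa.differentiableAt
    rw [hτy] at e3
    exact e3
  refine ⟨hr, hD, fun ζ => ?_⟩
  rw [hS.change y e e' he he' ζ, h, hD]
  rfl

theorem SRel.relP (hS : SRel p F π S Θ) {y : E} {e : Chart n X} {f : Cm n → Cm q}
    (he : At e (p y)) (hf : H501.Rep p F y e f)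
    (hs : Function.Surjective (fderiv ℂ f (e (p y)))) : RelP (fderiv ℂ f (e (p y))) (S y e) :=
  fun ξ i j hij hi hj => hS.rel.rel y e f he hf hs ξ i j hij hi hj

theorem mem_VS' (hp : IsCoveringMap p) {y : E} {e : Chart n X} (he : At e (p y))
    {f : Cm n → Cm q} (hf : H501.Rep p F y e f) {ξ : Cm n} :
    ξ ∈ VS p F y e ↔ fderiv ℂ f (e (p y)) ξ = 0 := mem_VS hp he hf.2

/-- the relative form with potentials -/
theorem thE_of [IsManifold 𝓘(ℂ, Cm n) ω X] (hG : IsGalois Γ p) (hF : HolB p w F B)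
    {c : Γ → Cm q} (hc : ∀ g y, F (g • y) = F y + c g) (hS : SRel p F π S Θ)
    {K : Subgroup Γ} {M₀ : Set (Cm q)}
    (hpot : ∀ t ∉ M₀, ∃ u : E → W, VPot p F t W Θ u ∧ VEqui p F t K π Θ u) :
    ThE p F K π Θ M₀ := by
  have hp := hG.cov
  have hp' := hp.isLocalHomeomorph
  refine ⟨fun y e hy he => ?_, fun y e e' hy he he' ξ hξ => ?_, fun g y e hy he ξ hξ => ?_, hpot⟩
  · obtain ⟨f, hf⟩ := rep_exists hF y e he
    obtain ⟨s, hs, hsS⟩ := hS.rel.form.holo y e he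
    have hsu := (H338.reg_iff hp' he hf).1 hy
    obtain ⟨J, hJ⟩ := dL_ne hsu
    set u : Fin q → Cm n := fun i => Pi.single (J i) 1 with hu
    have hd : AnalyticAt ℂ (fun z => dL (fderiv ℂ f z) u) (e (p y)) := an_dL hf.1.fderiv u
    refine ⟨fun z => (dL (fderiv ℂ f z) u)⁻¹ • sl (s z) u, (hd.inv hJ).smul (an_sl hs u), ?_⟩
    filter_upwards [ep_at hp' he, hf.near hp' he, hsS,
      (ep_ev hp' he).2 (hd.continuousAt.eventually_ne hJ)] with y' h1 h2 h3 h4 ξ hξ
    have h5 := surj_of_dL h4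
    have h6 := isW_sl (hS.relP h1 h2 h5) h5 h4
    rw [h3] at h6
    exact hS.th y' e f h1 h2 h5 _ (by rw [h3]; exact h6) ξ ((mem_VS' hp h1 h2).1 hξ)
  · obtain ⟨f', hf'⟩ := rep_exists hF y e' he'
    have hsu' := (H338.reg_iff hp' he' hf').1 hy
    obtain ⟨Θ', hΘ'⟩ := exists_isW (hS.relP he' hf' hsu') hsu'
    obtain ⟨hr, hD, hW⟩ := isW_chart hp' hS.rel.form he he' hf' hΘ'
    have hsu := (H338.reg_iff hp' he hr).1 hy
    have hξ' := (mem_VS' hp he hr).1 hξ
    rw [hS.th y e _ he hr hsu _ hW ξ hξ']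
    rw [hD] at hξ'
    exact (hS.th y e' f' he' hf' hsu' _ hΘ' _ hξ').symm
  · obtain ⟨f, hf⟩ := rep_exists hF y e he
    have hpg : ∀ y : E, p (g • y) = p y := fun y => ((hG.orb y (g • y)).2 ⟨g, rfl⟩).symm
    have hsu := (H338.reg_iff hp' he hf).1 hy
    obtain ⟨Θ', hΘ'⟩ := exists_isW (hS.relP he hf hsu) hsu
    have hr := rep_shift hp hpg (hG.cont g) (hc g) (rep_exists hF) he hf
    have hd : fderiv ℂ (fun z => f z + c g) (e (p (g • y))) = fderiv ℂ f (e (p y)) := by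
      rw [hpg, fderiv_add_const]
    have hW : IsW (fderiv ℂ (fun z => f z + c g) (e (p (g • y)))) (S (g • y) e)
        ((π g).toContinuousLinearEquiv.toContinuousLinearMap.comp Θ') := by
      intro ζ
      rw [hS.equi g y e he, hΘ', hd]
      unfold gf
      rw [map_smul, map_sum]
      congr 1
      refine Finset.sum_congr rfl fun σ _ => ?_
      rw [map_smul, map_smul]
      rfl
    have hξ' := (mem_VS' hp he hf).1 hξ
    have he' : At e (p (g • y)) := by rw [hpg]; exact he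
    rw [hS.th (g • y) e _ he' hr (by rw [hd]; exact hsu) _ hW ξ (by rw [hd]; exact hξ'),
      hS.th y e f he hf hsu _ hΘ' ξ hξ']
    rfl

/-- `Θ` is not zero somewhere -/
theorem th_ne [CompleteSpace W] [ConnectedSpace E] [IsManifold 𝓘(ℂ, Cm n) ω X] (hp : IsCoveringMap p)
    (hF : HolB p w F B)
    (hex : ∃ y, Reg (n := n) p F y) (hS : SRel p F π S Θ) :
    ∃ y e, Reg (n := n) p F y ∧ At e (p y) ∧ ∃ ξ ∈ VS p F y e, Θ y e ξ ≠ 0 := by
  have hp' := hp.isLocalHomeomorph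
  obtain ⟨y₀, hy₀⟩ := hex
  have hd := H338.form_ne_dense hp' hS.rel.form hS.ne
  obtain ⟨y, hy, hyr⟩ := hd.inter_open_nonempty _ (H338.reg_isOpen hp' (rep_exists hF)) ⟨y₀, hy₀⟩
  obtain ⟨e, he, ξ, hξ⟩ := hyr
  by_contra hcon
  push Not at hcon
  obtain ⟨f, hf⟩ := rep_exists hF y e he
  have hsu := (H338.reg_iff hp' he hf).1 hy
  obtain ⟨Θ', hΘ'⟩ := exists_isW (hS.relP he hf hsu) hsu
  have h1 : S y e = 0 := by
    refine relP_zero hsu fun u η hη => ?_
    rw [hΘ'.snoc u hη, ← hS.th y e f he hf hsu Θ' hΘ' η hη,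
      hcon y e hy he η ((mem_VS' hp he hf).2 hη), smul_zero]
  rw [h1] at hξ
  exact hξ rfl

end

end Vale.Agent.P284.H501.Core
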