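import Vale.Agent.P284.H501.Core.Th
import Vale.Agent.P284.H619.NulP
import Mathlib.Topology.Baire.CompleteMetrizable

/-!
# P284 (helper501): **the core theorem** from its modules
-/

open scoped Manifold ContDiff Topology
open Filter Set

noncomputable section

namespace Vale.Agent.P284.H501.Core

open Vale.Agent.P272.K Vale.Agent.P284.H894 Vale.Agent.P284.H894.G Vale.Agent.P284.H894.V
  Vale.Agent.P284.H894.W Vale.Agent.P284.H573 Vale.Agent.P284.H213.Grp Vale.Agent.P284.H213.Q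
  Vale.Agent.P284.H619 Vale.Agent.P284.H378 Vale.Agent.P284.H998

/-- the full rank case gives a good point -/
theorem good_of_leaf {n q r s m : ℕ} {X E Γ W H : Type} [TopologicalSpace X]
    [ChartedSpace (Cm n) X] [TopologicalSpace E] [Group Γ] [MulAction Γ E]
    [NormedAddCommGroup W] [InnerProductSpace ℂ W] [NormedAddCommGroup H] [InnerProductSpace ℂ H]
    {p : E → X} {F : E → Cm q} {v : E → Chart n X → (Fin (q + r) → Cm n) → H}
    {U : Γ → (H →ₗᵢ[ℂ] H)} {π : Γ →* (W ≃ₗᵢ[ℂ] W)} {Θ : E → Chart n X → (Cm n →L[ℂ] W)}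
    {k : ℕ} {N : Cm k →L[ℂ] Cm q} {𝒢 : Set E} (hL : LeafE s p F m v U π Θ N 𝒢) (hk : k = 0)
    {y : E} (hy : y ∈ 𝒢) : GoodAt p (q + r) m v y := by
  obtain ⟨e, b, F0, β, γ, τ, h⟩ := hL.chart y hy
  have hs : s = q + r := by have := hL.dim; omega
  refine ⟨e, b, fun x => γ (β x), h.mem, h.ban, h.bsurj,
    AnalyticAt.comp (g := γ) (f := β) h.γan h.βan, ⟨h.imm.1, fun η a hη => ?_⟩, h.v_eq⟩
  have h1 : fderiv ℂ (fun x => γ (β x)) (b (e (p y))) =
      (fderiv ℂ γ (β (b (e (p y))))).comp (fderiv ℂ β (b (e (p y)))) :=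
    fderiv_comp (𝕜 := ℂ) (b (e (p y))) (g := γ) (f := β) h.γan.differentiableAt
      h.βan.differentiableAt
  rw [h1] at hη
  have h2 := h.imm.2 (fderiv ℂ β (b (e (p y))) η) a hη
  have h3 : Function.Injective (fderiv ℂ β (b (e (p y)))) := by
    have h4 : Module.finrank ℂ (Cm (q + r)) = Module.finrank ℂ (Cm s) := by
      rw [hs]
    exact (LinearMap.injective_iff_surjective_of_finrank_eq_finrank
      (f := (fderiv ℂ β (b (e (p y))) : Cm (q + r) →ₗ[ℂ] Cm s)) h4).2 h.βsurj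
  exact h3 (by rw [h2, map_zero])

/-- the form with the leaf data gives the trichotomy -/
theorem ns_of_ns2 (h : NS2Stmt) : NSStmt := by
  intro n X _ _ _ _ _ _ w hw E Γ _ _ _ _ p hG q F c hF hc hR W _ _ _ π S Θ hS
  rcases h n X w hw E Γ p hG q F c hF hc hR W π S Θ hS with hB | hC
  · exact Or.inr (Or.inl hB)
  · obtain ⟨r, s, k, m, H, i1, i2, i3, v, U, N, 𝒢, hne, hL⟩ := hC
    rcases Nat.eq_zero_or_pos k with hk | hk
    · obtain ⟨y, hy⟩ := hne
      exact Or.inl ⟨q + (r + 1), m, by omega, hL.m_pos, H, i1, i2, i3, v, y, hL.form,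
        good_of_leaf hL hk hy⟩
    · exact Or.inr (Or.inr ⟨r + 1, s, k, m, H, i1, i2, i3, v, U, N, 𝒢,
        { toLeafE := hL, k_pos := hk }⟩)

/-- the core, `q ≥ 1` -/
theorem core_pos (hLim : LimEStmt) (hNS : NSStmt) (hC : H378.CStmt) {D : Cls} (hD : NoFormD D)
    (n : ℕ) (X : Type) [TopologicalSpace X] [T2Space X] [CompactSpace X] [ConnectedSpace X]
    [ChartedSpace (Cm n) X] [IsManifold 𝓘(ℂ, Cm n) ω X] (ι : Type) [Fintype ι] (J : PJ n X ι)
    (hDX : D n X) (w : Chart n X → Cm n → Matrix (Fin n) (Fin n) ℂ) (hw : IsKahler w)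
    (E Γ : Type) [TopologicalSpace E] [ConnectedSpace E] [Group Γ] [MulAction Γ E]
    (p : E → X) (hG : IsGalois Γ p) (hFo : Folner Γ) (q : ℕ) (hq : 1 ≤ q) (F : E → Cm q)
    (c : Γ → Cm q) (K : Subgroup Γ) (hF : ∃ B, HolB p w F B)
    (hc : ∀ g y, F (g • y) = F y + c g) (hR : ∃ y, Reg (n := n) p F y)
    (hGC : GenConn (n := n) p F) (hN : NPkg Γ q c K) : False := by
  obtain ⟨B, hFB⟩ := hF
  obtain ⟨W, _, _, _, π, S, Θ, M₀, hS, hπ, hM₀, hpot⟩ :=
    hLim n X w hw E Γ p hG hFo q hq F c K ⟨B, hFB⟩ hc hR hGC hN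
  rcases hNS n X w hw E Γ p hG q F c ⟨B, hFB⟩ hc hR W π S Θ hS with hA | hB | hCC
  · obtain ⟨R, m, hR1, hm1, H, _, _, _, v, y, hv, hy⟩ := hA
    exact hD n X ι J hDX E Γ p hG R m hR1 hm1 H v hv y hy
  · obtain ⟨O, hO, hOne, hOa⟩ := hB
    obtain ⟨T, hTc, hTi, hT⟩ := hGC
    -- a point of `O` on a generic fibre
    obtain ⟨y₁, hy₁O, hy₁⟩ := (H10.reg_dense hq hG.cov hFB hR).inter_open_nonempty O hO hOne
    have h1 : F '' O ∈ 𝓝 (F y₁) := by
      rw [← H885.Ker.reg_map hG.cov hFB hy₁]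
      exact Filter.image_mem_map (hO.mem_nhds hy₁O)
    have hTm : IsMeagre T := by
      have : IsNowhereDense T := by
        rw [IsNowhereDense, hTc.closure_eq, hTi]
      exact this.isMeagre
    have h2 : Dense (T ∪ M₀)ᶜ := dense_of_mem_residual (hTm.union hM₀)
    obtain ⟨t, ht1, ht2⟩ := h2.inter_nhds_nonempty h1
    obtain ⟨y₀, hy₀, rfl⟩ := ht2
    have ht : F y₀ ∉ T ∧ F y₀ ∉ M₀ := by
      constructor
      · exact fun h => ht1 (Or.inl h)
      · exact fun h => ht1 (Or.inr h)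
    obtain ⟨a, ha, hev⟩ := hOa y₀ hy₀
    obtain ⟨u, hu1, hu2⟩ := hpot _ ht.2
    have hHE : HolE n p F := fun y e he => by
      obtain ⟨f, h1, h2⟩ := H221.holB_an hFB y he
      exact ⟨f, h2, h1⟩
    exact ha (nulStmt n q X E Γ p hG hFo F c K hHE hc hN (F y₀) (hT _ ht.1).1 (hT _ ht.1).2 W π Θ u
      hu1 hu2 y₀ rfl a hev)
  · obtain ⟨r, s, k, m, H, _, _, _, v, U, N, 𝒢, hI⟩ := hCC
    exact hC n q r k s m X w hw E Γ p hG hFo F c K ⟨B, hFB⟩ hc hN hGC hR W H π Θ M₀ hM₀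
      (thE_of hG hFB hc hS hpot) (th_ne hG.cov hFB hR hS) hπ v U N 𝒢 hI

/-- **CORE** -/
theorem core_of (hLim : LimEStmt) (hNS : NSStmt) (hC : H378.CStmt) (h0 : Core0Stmt) {D : Cls}
    (hD : NoFormD D) : CoreD D := by
  intro n X _ _ _ _ _ _ ι _ J hDX w hw E Γ _ _ _ _ p hG hFo q F c K hF hc hR hGC hN
  rcases Nat.eq_zero_or_pos q with hq | hq
  · subst hq
    obtain ⟨R, m, hR1, hm1, H, _, _, _, v, y, hv, hy⟩ := h0 n X w hw E Γ p hG hFo c K hN
    exact hD n X ι J hDX E Γ p hG R m hR1 hm1 H v hv y hy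
  · exact core_pos hLim hNS hC hD n X ι J hDX w hw E Γ p hG hFo q hq F c K hF hc hR hGC hN

/-- `SigStmt` gives `NoFormD` for dominated manifolds -/
theorem noForm_of (N : ℕ) (h : H221.SigStmt) : NoFormD (fun n X _ _ => H221.Dom N n X) := by
  intro n X _ _ _ _ _ _ ι _ J hDX E Γ _ _ _ _ p hG R m hR hm H _ _ _ v hv y hy
  exact h n N R m hR hm X ι J hDX E p hG.cov hG.surj H v hv ⟨y, hy⟩

end Vale.Agent.P284.H501.Core
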