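import Vale.Agent.P284.H501.Core.Th

/-!
# P284 (helper501), CORE assembly: the output of the limit for `q = 0`
-/

open scoped Manifold ContDiff Topology ENNReal InnerProductSpace ComplexConjugate
open Filter Set MeasureTheory

noncomputable section

namespace Vale.Agent.P284.H501.Core

open Vale.Agent.P272.K Vale.Agent.P284.H894 Vale.Agent.P284.H894.G Vale.Agent.P284.H894.V
  Vale.Agent.P284.H894.W Vale.Agent.P284.H573 Vale.Agent.P284.H213.Grp Vale.Agent.P284.H213.Q
  Vale.Agent.P284.H619 Vale.Agent.P284.H378 Vale.Agent.P284.H998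

/-- `LimEStmt` for one `q` -/
def LimAt (q : ℕ) : Prop :=
  ∀ (n : ℕ) (X : Type) [TopologicalSpace X] [T2Space X] [CompactSpace X] [ConnectedSpace X]
    [ChartedSpace (Cm n) X] [IsManifold 𝓘(ℂ, Cm n) ω X]
    (w : Chart n X → Cm n → Matrix (Fin n) (Fin n) ℂ), IsKahler w →
    ∀ (E Γ : Type) [TopologicalSpace E] [ConnectedSpace E] [Group Γ] [MulAction Γ E]
      (p : E → X), IsGalois Γ p → Folner Γ →
    ∀ (F : E → Cm q) (c : Γ → Cm q) (K : Subgroup Γ), (∃ B, HolB p w F B) →
      (∀ g y, F (g • y) = F y + c g) → (∃ y, Reg (n := n) p F y) → GenConn (n := n) p F →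
      NPkg Γ q c K →
    ∃ (W : Type) (_ : NormedAddCommGroup W) (_ : InnerProductSpace ℂ W) (_ : CompleteSpace W)
      (π : Γ →* (W ≃ₗᵢ[ℂ] W)) (S : E → Chart n X → Cm n [⋀^Fin (q + 1)]→L[ℂ] W)
      (Θ : E → Chart n X → (Cm n →L[ℂ] W)) (M₀ : Set (Cm q)),
      SRel p F π S Θ ∧ (∀ g, (∀ k ∈ K, g * k = k * g) → π g = 1) ∧ IsMeagre M₀ ∧
      ∀ t ∉ M₀, ∃ u : E → W, VPot p F t W Θ u ∧ VEqui p F t K π Θ u

theorem limAt_pos (h : LimEStmt) {q : ℕ} (hq : 1 ≤ q) : LimAt q := by
  intro n X _ _ _ _ _ _ w hw E Γ _ _ _ _ p hG hFo F c K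
  exact h n X w hw E Γ p hG hFo q hq F c K

section
variable {n : ℕ} {W : Type} [NormedAddCommGroup W] [NormedSpace ℂ W]

/-- a 1-form as an alternating form -/
def alt1 (A : Cm n →L[ℂ] W) : Cm n [⋀^Fin (0 + 1)]→L[ℂ] W :=
  ContinuousAlternatingMap.ofSubsingleton ℂ (Cm n) W (0 : Fin 1) A

theorem alt1_apply (A : Cm n →L[ℂ] W) (ξ : Fin (0 + 1) → Cm n) : alt1 A ξ = A (ξ 0) := rfl

theorem an_alt1 {f : Cm n → (Cm n →L[ℂ] W)} {z : Cm n} (h : AnalyticAt ℂ f z) :
    AnalyticAt ℂ (fun z => alt1 (f z)) z := by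
  refine an_of fun v => ?_
  simp only [alt1_apply]
  exact ((ContinuousLinearMap.apply ℂ W (Pi.single (v 0) 1 : Cm n)).analyticAt _).comp h

end

/-- **the limit for `q = 0`** -/
theorem limAt_zero (hL : Lim0Stmt) : LimAt 0 := by
  intro n X _ _ _ _ _ _ w hw E Γ _ _ _ _ p hG hFo F c K hFB hc hR hGC hN
  have hKinf := hN.inf
  have hinf : Infinite Γ := Infinite.of_injective (fun k : K => (k : Γ)) Subtype.val_injective
  obtain ⟨W, iW1, iW2, iW3, π, Θ, u, hΘ, hπ, hpot, hb, y₀, e₀, he₀, hne⟩ :=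
    hL n X w hw E Γ p hG hinf hFo
  have hp := hG.cov
  have hp' := hp.isLocalHomeomorph
  have hpg : ∀ (g : Γ) (y : E), p (g • y) = p y := fun g y =>
    ((hG.orb y (g • y)).2 ⟨g, rfl⟩).symm
  refine ⟨W, iW1, iW2, iW3, π, fun y e => alt1 (Θ y e), Θ, ∅, ?_, ?_, IsMeagre.empty, ?_⟩
  · refine ⟨⟨⟨fun y e he => ?_, fun y e e' he he' ξ => ?_⟩, fun y e f _ _ _ ξ i j hij => ?_,
      fun y e f s he hf hs hsS => ?_⟩, fun y e s he hs hsS => ?_, fun g y e he ξ => ?_, ?_, ?_⟩
    · obtain ⟨f, hf, hev⟩ := hΘ.loc y e he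
      refine ⟨fun z => alt1 (fderiv ℂ f z), an_alt1 hf.fderiv, ?_⟩
      filter_upwards [hev] with y' h1
      rw [h1]
    · rw [alt1_apply, alt1_apply, hΘ.change y e e' he he']
      rfl
    · exact absurd (Subsingleton.elim (α := Fin 1) i j) hij
    · -- the flat energy is trivial on `ℂ^0`
      have h1 : ∀ᶠ z in 𝓝 (e (p y)), ‖s z‖ₑ < ‖s (e (p y))‖ₑ + 1 := by
        have h2 : ContinuousAt (fun z => ‖s z‖ₑ) (e (p y)) := hs.continuousAt.enorm
        refine h2.eventually_lt continuousAt_const ?_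
        exact ENNReal.lt_add_right (by simp) one_ne_zero
      obtain ⟨ρ, hρ, hB⟩ := Metric.mem_nhds_iff.1 h1
      set A : ℝ≥0∞ := (‖s (e (p y))‖ₑ + 1) ^ 2 * volume (Metric.ball (e (p y)) ρ) with hA
      refine ⟨Metric.ball (e (p y)) ρ, Metric.ball_mem_nhds _ hρ, A, ?_, fun g hg => ?_⟩
      · refine ENNReal.mul_ne_top ?_ (measure_ball_lt_top).ne
        exact ENNReal.pow_ne_top (by simp)
      · have h3 : ∀ x : Cm 0, g x = g 0 := fun x => by rw [Subsingleton.elim x 0]
        have h4 : ∫⁻ x : Cm 0, g x = g 0 := by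
          simp only [h3]
          rw [lintegral_const]
          have : (volume : Measure (Cm 0)) univ = 1 := by
            rw [volume_pi, Measure.pi_of_empty]
            simp
          rw [this, mul_one]
        rw [h4]
        calc ∫⁻ z in Metric.ball (e (p y)) ρ, g (f z) * ‖s z‖ₑ ^ 2
            ≤ ∫⁻ _ in Metric.ball (e (p y)) ρ, g 0 * (‖s (e (p y))‖ₑ + 1) ^ 2 := by
              refine setLIntegral_mono' Metric.isOpen_ball.measurableSet fun z hz => ?_
              rw [h3 (f z)]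
              gcongr
              exact (hB hz).le
          _ = A * g 0 := by
              rw [setLIntegral_const, hA]
              ring
    · -- closed
      obtain ⟨f, hf, hev⟩ := hΘ.loc y e he
      have h1 : ∀ᶠ z in 𝓝 (e (p y)), s z = alt1 (fderiv ℂ f z) := by
        refine (ep_ev hp' he).1 ?_
        filter_upwards [hsS, hev] with y' h2 h3
        rw [← h2, h3]
      have h2 : ∀ᶠ z in 𝓝 (e (p y)), AnalyticAt ℂ f z := hf.eventually_analyticAt
      filter_upwards [h1.eventually_nhds, h2] with z h3 h4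
      have h5 : s =ᶠ[𝓝 z] extDeriv (fun x =>
          ContinuousAlternatingMap.constOfIsEmpty ℂ (Cm n) (Fin 0) (f x)) := by
        filter_upwards [h3] with z' h6
        rw [h6, extDeriv_constOfIsEmpty]
        rfl
      rw [h5.extDeriv.self_of_nhds]
      refine extDeriv_extDeriv_apply (r := ω) ?_ (by simp)
      have h6 : AnalyticAt ℂ (fun x =>
          ContinuousAlternatingMap.constOfIsEmpty ℂ (Cm n) (Fin 0) (f x)) z := by
        have h7 := ((ContinuousAlternatingMap.constOfIsEmptyLIE ℂ (Cm n) W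
          (Fin 0)).toContinuousLinearEquiv.toContinuousLinearMap.analyticAt (f z)).comp h4
        exact h7
      exact h6.contDiffAt
    · rw [alt1_apply, alt1_apply, hπ g y e he]
      rfl
    · refine ⟨y₀, e₀, he₀, ?_⟩
      by_contra hcon
      push Not at hcon
      apply hne
      ext1 ξ
      exact hcon fun _ => ξ
    · -- `IsTh`
      intro y e f he hf hs Θ' hΘ' ξ hξ
      have h1 := hΘ'.snoc (fun i => i.elim0) hξ
      have h2 : dL (fderiv ℂ f (e (p y))) (fun i : Fin 0 => i.elim0) = 1 := by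
        rw [dL]
        exact Matrix.det_isEmpty
      rw [h2, one_smul] at h1
      rw [← h1, alt1_apply]
      rfl
  · intro g hg
    have h1 : g = 1 := by
      have : (K.subgroupOf K).FiniteIndex := by
        rw [Subgroup.subgroupOf_self]
        infer_instance
      exact hN.cent K le_rfl this g (Subsingleton.elim _ _) hg
    rw [h1, map_one]
  · intro t _
    have hFt : ∀ y, F y = t := fun y => Subsingleton.elim _ _
    refine ⟨u, ⟨fun y e _ he => ?_, fun y e e' _ he he' ξ _ => ?_, fun y e _ he d => ?_⟩,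
      fun k _ y e _ he ξ _ => ?_, fun k _ => ?_⟩
    · obtain ⟨f, hf, hev⟩ := hΘ.loc y e he
      refine ⟨fun z => fderiv ℂ f z, hf.fderiv, ?_⟩
      filter_upwards [hev] with y' h1 _ ξ _
      rw [h1]
    · rw [hΘ.change y e e' he he']
      rfl
    · obtain ⟨g, h, hg, hh, hev⟩ := hpot y e he d
      refine ⟨g, h, hg, hh, ?_⟩
      filter_upwards [hev] with y' h1 _
      exact ⟨h1.1, fun ξ _ => h1.2 ξ⟩
    · rw [hπ k y e he]
      rfl
    · obtain ⟨b, hb⟩ := hb k
      exact ⟨b, fun y _ => hb y⟩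

end Vale.Agent.P284.H501.Core
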