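import Vale.Agent.P284.H366.LimE
import Vale.Agent.P284.H402.B.TF4
import Vale.Agent.P284.H894.V.Final
import Vale.Agent.P284.H501.Core.Zero

/-!
# P284 (helper501): the limit for `q = 0` from the potentials (`PotS`)

`limAt_zero_of_pot : H366.PotS → LimAt 0`.  The sequence is the normalised sequence of helper894's
`exConcl` (almost pluriharmonic functions with compact support).
-/

open scoped Manifold ContDiff Topology Pointwise ComplexConjugate ComplexOrder Matrix ENNReal
  InnerProductSpace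
open Filter Set Metric MeasureTheory

noncomputable section

set_option linter.unusedSectionVars false

namespace Vale.Agent.P284.H501.Core

open Vale.Agent.P272.K Vale.Agent.P272.K.C2 Vale.Agent.P284.H248 Vale.Agent.P284.H894
  Vale.Agent.P284.H894.G Vale.Agent.P284.H894.V Vale.Agent.P284.H894.W Vale.Agent.P284.H402.A
  Vale.Agent.P284.H402.B Vale.Agent.P284.H639.V Vale.Agent.P284.H366 Vale.Agent.P284.H551
  Vale.Agent.P284.H213.Grp Vale.Agent.P284.H619 Vale.Agent.P284.H378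

/-! ### Densities for `q = 0` -/

section
variable {n : ℕ}

theorem dzb_ofReal (u : Cm n → ℝ) (j : Fin n) (z : Cm n) :
    dzb j (fun y => (u y : ℂ)) z = star (dz j (fun y => (u y : ℂ)) z) := by
  by_cases hu : DifferentiableAt ℝ u z
  · exact C2.dzb_real j hu
  · have h1 : ¬ DifferentiableAt ℝ (fun y => (u y : ℂ)) z := by
      intro h2
      exact hu (Complex.reCLM.differentiableAt.comp z h2)
    rw [dz, dzb, fderiv_zero_of_not_differentiableAt h1]
    simp

theorem AA_zero (w : Matrix (Fin n) (Fin n) ℂ) (θ : Matrix (Fin n) (Fin 0) ℂ) (δ : ℝ) :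
    AA w θ δ = w⁻¹ := by
  rw [AA, Matrix.det_isEmpty, one_smul]
  have h : w⁻¹ * θ * (TT w θ δ).adjugate * θᴴ * w⁻¹ = 0 := by
    have h1 : w⁻¹ * θ * (TT w θ δ).adjugate * θᴴ = 0 := by
      ext i j
      rw [Matrix.mul_apply]
      simp
    rw [h1, Matrix.zero_mul]
  rw [h, sub_zero]

end

section
variable {n : ℕ} {Γ : Type} [Group Γ] {C : Coc n Γ} {f : Γ → C.I → Cm n → ℝ}

theorem vA_zero (K : KM C) (θ : HF C 0) (f : Γ → C.I → Cm n → ℝ) (γ : Γ) (a : C.I) (z : Cm n) :
    vA K θ 0 f f γ a z = Gr K f f γ a z := by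
  rw [vA, AA_zero, Gr, gr, qf]
  congr 1
  simp only [dotProduct, Matrix.mulVec, Finset.mul_sum, Pi.star_apply]
  rw [Finset.sum_comm]
  refine Finset.sum_congr rfl fun j _ => Finset.sum_congr rfl fun k _ => ?_
  have h : dzb k (fun y => ((f γ a y : ℝ) : ℂ)) z = star (pd (f γ a) z k) :=
    dzb_ofReal (f γ a) k z
  rw [h]
  simp only [pd]
  ring

theorem oA_zero (K : KM C) (θ : HF C 0) (f : Γ → C.I → Cm n → ℝ) (γ : Γ) (a : C.I) (z : Cm n) :
    oA K θ f γ a z = Hh K f f γ a z := by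
  rw [oA, AA_zero, Hh, hh, tr2]

end

/-! ### The limit does not vanish -/

section glob
variable {n q : ℕ} {Γ : Type} [Group Γ] {C : Coc n Γ} {K : KM C} {θ : HF C q}

/-- helper402's `ASeq.nonvan` for any sequence of energy `1` -/
theorem nonvan_of (P : PU C) {f : ℕ → Γ → C.I → Cm n → ℝ} (hf : ∀ k, IsTst C (f k))
    (hone : ∀ k, en P K θ 0 (f k) (f k) = 1) {U : Ultrafilter ℕ}
    (hT : TSeq U fun k => tf θ (hf k)) (D : MD C) (γ : Γ) :
    ∃ a, ∃ z ∈ D.Q a, LimS D U (fun k => tf θ (hf k)) γ a z ≠ 0 := by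
  by_contra hcon
  push Not at hcon
  obtain ⟨B, hB0, hB⟩ := vA_up K θ
  have hlim : ∀ a, ∀ J : Fin (q + 1) → Fin n, Tendsto (fun k => ∑ g ∈ (tf θ (hf k)).S,
      ∫ z in D.Q a, ‖(tf θ (hf k)).s g a z (eJ J)‖ ^ 2) U (𝓝 0) := fun a J =>
    LimS_zero D hT γ a (hcon a) (eJ J)
  have hL : 0 ≤ |K.Lam| := abs_nonneg _
  have h1 : ∀ k, (1 : ℝ) ≤ Fintype.card C.I * ∑ a, ∑ J : Fin (q + 1) → Fin n,
      (B * |K.Lam|) * ∑ g ∈ (tf θ (hf k)).S,
        ∫ z in D.Q a, ‖(tf θ (hf k)).s g a z (eJ J)‖ ^ 2 := by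
    intro k
    have hf' := hf k
    have h2 := H913.V.v3Stmt.ge C P K _ (fam_vA hf' hf' K θ 0) fun γ a z hz => vA_nn K θ (f k) γ hz
    have h3 : Int P K (vA K θ 0 (f k) (f k)) = 1 := hone k
    rw [h3] at h2
    refine h2.trans (mul_le_mul_of_nonneg_left ?_ (Nat.cast_nonneg _))
    have hout : ∀ γ ∉ (tf θ hf').S, ∀ a, ∀ z ∈ C.W a,
        vA K θ 0 (f k) (f k) γ a z = 0 := by
      intro γ hγ a z hz
      have hzV : z ∈ C.V a := D.Q_sub a (D.W_sub a hz)
      have h4 := hB (f k) hf' γ a z hzV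
      have h5 : ∀ J, (tf θ hf').s γ a z (eJ J) = 0 := fun J => by
        rw [(tf θ hf').out γ hγ a z hzV]
        rfl
      simp only [h5, norm_zero, ne_eq, OfNat.ofNat_ne_zero, not_false_eq_true, zero_pow,
        Finset.sum_const_zero, mul_zero] at h4
      exact le_antisymm h4 (vA_nn K θ (f k) γ (H366.V_sub_Ω C a hzV))
    have hW : ∀ a, MeasurableSet (C.W a) := fun a => isOpen_ball.measurableSet
    rw [tsum_eq_sum (s := (tf θ hf').S) fun γ hγ => Finset.sum_eq_zero fun a _ => by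
      rw [setIntegral_congr_fun (g := fun _ => (0 : ℝ)) (hW a) fun z hz => by
        simp only [hout γ hγ a z hz, zero_mul], integral_zero]]
    rw [Finset.sum_comm]
    refine Finset.sum_le_sum fun a _ => ?_
    rw [← Finset.mul_sum, Finset.sum_comm, Finset.mul_sum]
    refine Finset.sum_le_sum fun g _ => ?_
    have hQ : MeasurableSet (D.Q a) := (D.Q_open a).measurableSet
    have hi : ∀ J : Fin (q + 1) → Fin n,
        IntegrableOn (fun z => ‖(tf θ hf').s g a z (eJ J)‖ ^ 2) (D.Q a) := fun J =>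
      ((tf θ hf').int1 g a (eJ J)).mono_set (D.Q_sub a)
    have hvi : IntegrableOn (fun z => vA K θ 0 (f k) (f k) g a z * vol (K.w a) z) (C.V a) :=
      H913.V.intV (((fam_vA hf' hf' K θ 0).cont g a).mul (H913.V.vol_cont K a))
    have h6 : ∫ z in C.W a, vA K θ 0 (f k) (f k) g a z * vol (K.w a) z ≤
        ∫ z in D.Q a, vA K θ 0 (f k) (f k) g a z * vol (K.w a) z := by
      refine setIntegral_mono_set (hvi.mono_set (D.Q_sub a)) ?_ (D.W_sub a).eventuallyLE
      filter_upwards [ae_restrict_mem hQ] with z hz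
      have hz' := H366.V_sub_Ω C a (D.Q_sub a hz)
      exact mul_nonneg (vA_nn K θ (f k) g hz') (H913.V.vol_nn K hz')
    refine h6.trans ?_
    rw [← integral_finsetSum _ fun J _ => hi J, ← integral_const_mul]
    refine setIntegral_mono_on (hvi.mono_set (D.Q_sub a))
      ((integrable_finsetSum _ fun J _ => hi J).const_mul _) hQ fun z hz => ?_
    have hzV := D.Q_sub a hz
    have hz' := H366.V_sub_Ω C a hzV
    have h7 := hB (f k) hf' g a z hzV
    have h8 := K.vol_up a z hz'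
    have h9 := H913.V.vol_nn K hz'
    have h10 : 0 ≤ ∑ J : Fin (q + 1) → Fin n, ‖(tf θ hf').s g a z (eJ J)‖ ^ 2 :=
      Finset.sum_nonneg fun J _ => sq_nonneg _
    calc vA K θ 0 (f k) (f k) g a z * vol (K.w a) z
        ≤ (B * ∑ J : Fin (q + 1) → Fin n, ‖(tf θ hf').s g a z (eJ J)‖ ^ 2) * |K.Lam| :=
          mul_le_mul h7 (h8.trans (le_abs_self _)) h9 (mul_nonneg hB0 h10)
      _ = _ := by ring
  have h2 : Tendsto (fun k => (Fintype.card C.I : ℝ) * ∑ a, ∑ J : Fin (q + 1) → Fin n,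
      (B * |K.Lam|) * ∑ g ∈ (tf θ (hf k)).S,
        ∫ z in D.Q a, ‖(tf θ (hf k)).s g a z (eJ J)‖ ^ 2) U (𝓝 0) := by
    have h3 := (tendsto_finsetSum (Finset.univ : Finset C.I) fun a _ =>
      tendsto_finsetSum (Finset.univ : Finset (Fin (q + 1) → Fin n)) fun J _ =>
        (hlim a J).const_mul (B * |K.Lam|)).const_mul (Fintype.card C.I : ℝ)
    simpa using h3
  exact absurd (ge_of_tendsto' h2 h1) (by norm_num)

/-- the normalised sequence for `q = 0` -/
theorem exists_seq0 [Infinite Γ] (P : PU C) (K : KM C) (θ : HF C 0) (hF : Folner Γ) :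
    ∃ (f : ℕ → Γ → C.I → Cm n → ℝ) (_ : ∀ k, IsTst C (f k)),
      (∀ k, en P K θ 0 (f k) (f k) = 1) ∧
      Tendsto (fun k => Int P K (oA K θ (f k))) atTop (𝓝 0) := by
  choose g hg hε using fun k : ℕ => exConcl n Γ C P K hF (1 / ((k : ℝ) + 1)) (by positivity)
  have hv : ∀ k, en P K θ 0 (g k) (g k) = Int P K (Gr K (g k) (g k)) := by
    intro k
    rw [en]
    congr 1
    funext γ a z
    exact vA_zero K θ (g k) γ a z
  have ho : ∀ k, Int P K (oA K θ (g k)) = Int P K (Hh K (g k) (g k)) := by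
    intro k
    congr 1
    funext γ a z
    exact oA_zero K θ (g k) γ a z
  have hon : ∀ k, 0 ≤ Int P K (oA K θ (g k)) := fun k =>
    Asm.Int_nonneg H913.V.v3Stmt P K (fam_oA (hg k) K θ) fun γ a z hz =>
      oA_nn K θ (hg k) γ (Asm.V_sub_Ω C a hz)
  have hpos : ∀ k, 0 < en P K θ 0 (g k) (g k) := by
    intro k
    have h1 := (hon k).trans_lt (by rw [ho]; exact hε k)
    rw [← hv] at h1
    have h2 : (0 : ℝ) < 1 / ((k : ℝ) + 1) := by positivity
    exact (pos_iff_pos_of_mul_pos h1).1 h2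
  set V : ℕ → ℝ := fun k => en P K θ 0 (g k) (g k) with hV
  set r : ℕ → ℝ := fun k => (Real.sqrt (V k))⁻¹ with hr
  have hr2 : ∀ k, r k ^ 2 = (V k)⁻¹ := fun k => by
    rw [hr]
    simp only
    rw [inv_pow, Real.sq_sqrt (hpos k).le]
  refine ⟨fun k => sc (r k) (g k), fun k => isTst_sc _ (hg k), fun k => ?_, ?_⟩
  · rw [en_sc K θ P _ (hg k), hr2]
    exact inv_mul_cancel₀ (hpos k).ne'
  · have h3 : ∀ k, Int P K (oA K θ (sc (r k) (g k))) = (V k)⁻¹ * Int P K (oA K θ (g k)) := by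
      intro k
      rw [← hr2, ← Int_mul H913.V.v3Stmt P K (fam_oA (hg k) K θ)]
      exact Int_cg K P fun γ a z hz => oA_sc K θ _ (hg k) γ hz
    have h4 : ∀ k, (V k)⁻¹ * Int P K (oA K θ (g k)) ≤ 1 / ((k : ℝ) + 1) := by
      intro k
      rw [inv_mul_le_iff₀ (hpos k), ho, hv, mul_comm]
      exact (hε k).le
    refine squeeze_zero (fun k => ?_) (fun k => ?_) tendsto_one_div_add_atTop_nhds_zero_nat
    · rw [h3]
      exact mul_nonneg (inv_nonneg.2 (hpos k).le) (hon k)
    · rw [h3]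
      exact h4 k

end glob

/-- **The limit for `q = 0`**, from the potentials. -/
theorem limAt_zero_of_pot (h619 : PotS) : LimAt 0 := by
  intro n X _ _ _ _ _ _ w hw E Γ _ _ _ _ p hG hFol F c K hBB hc hreg hconn hNP
  have hKinf := hNP.inf
  have hinf : Infinite Γ := Infinite.of_injective (fun k : K => (k : Γ)) Subtype.val_injective
  obtain ⟨B, hB⟩ := hBB
  obtain ⟨C, D, KK, ⟨P⟩, hKw⟩ := exists_eCoc hw hG
  set θ := hfF hG D KK hKw hB hc hreg with hθ
  obtain ⟨f, hf, hone, hlim⟩ := exists_seq0 P KK θ hFol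
  set U : Ultrafilter ℕ := hyperfilter ℕ with hUd
  have hU : (U : Filter ℕ) ≤ atTop := Nat.hyperfilter_le_atTop
  obtain ⟨Dm, hDm⟩ := exists_MD C P.K P.compactK P.K_sub
  have hT : TSeq U fun k => tf θ (hf k) :=
    tseq_of P KK θ hf (M := 1) (fun k => (hone k).le) (hlim.mono_left hU)
  have hcl : ∀ k, (tf θ (hf k)).Closed := fun k => tf_closed θ (hf k)
  have hne : ∃ γ a, ∃ z ∈ Dm.Q a, LimS Dm U (fun k => tf θ (hf k)) γ a z ≠ 0 :=
    ⟨1, nonvan_of P hf hone hT Dm 1⟩
  set s := LimS Dm U (fun k => tf θ (hf k)) with hs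
  have hcf : CForm C Dm.Q s := cform_lim Dm hT
  have hHolE : HolE n p F := fun y e he => by
    obtain ⟨f, hf⟩ := rep_of_holB hG D hB y e he
    exact ⟨f, hf.2, hf.1⟩
  set S := SE hG D s with hS
  obtain ⟨hform, hclo, heq, y₀, e₀, ξ₀, he₀, hne₀⟩ := limE hG D Dm hT hcl hne
  have hregall : ∀ y, Reg (n := n) p F y := fun y e f he hf v => ⟨0, Subsingleton.elim _ _⟩
  have hRel : RelS p F S := by
    refine ⟨hform, fun y e f _ _ _ ξ i j hij => ?_, fun y e f s he hf hs hsS => ?_⟩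
    · exact absurd (Subsingleton.elim (α := Fin 1) i j) hij
    · have h1 : ∀ᶠ z in 𝓝 (e (p y)), ‖s z‖ₑ < ‖s (e (p y))‖ₑ + 1 := by
        have h2 : ContinuousAt (fun z => ‖s z‖ₑ) (e (p y)) := hs.continuousAt.enorm
        refine h2.eventually_lt continuousAt_const ?_
        exact ENNReal.lt_add_right (by simp) one_ne_zero
      obtain ⟨ρ, hρ, hB⟩ := Metric.mem_nhds_iff.1 h1
      set A : ℝ≥0∞ := (‖s (e (p y))‖ₑ + 1) ^ 2 * volume (Metric.ball (e (p y)) ρ) with hA
      refine ⟨Metric.ball (e (p y)) ρ, Metric.ball_mem_nhds _ hρ, A, ?_, fun g hg => ?_⟩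
      · refine ENNReal.mul_ne_top ?_ (measure_ball_lt_top).ne
        exact ENNReal.pow_ne_top (by simp)
      · have h3 : ∀ x : Cm 0, g x = g 0 := fun x => by rw [Subsingleton.elim x 0]
        have h4 : ∫⁻ x : Cm 0, g x = g 0 := by
          simp only [h3]
          rw [lintegral_const]
          have : (volume : Measure (Cm 0)) univ = 1 := by
            rw [volume_pi, Measure.pi_of_empty]
            simp
          rw [this, mul_one]
        rw [h4]
        calc ∫⁻ z in Metric.ball (e (p y)) ρ, g (f z) * ‖s z‖ₑ ^ 2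
            ≤ ∫⁻ _ in Metric.ball (e (p y)) ρ, g 0 * (‖s (e (p y))‖ₑ + 1) ^ 2 := by
              refine setLIntegral_mono' Metric.isOpen_ball.measurableSet fun z hz => ?_
              rw [h3 (f z)]
              gcongr
              exact (hB hz).le
          _ = A * g 0 := by
              rw [setLIntegral_const, hA]
              ring
  have hRE : RelE p F S := relE_of hG.cov hHolE hRel.rel
  have huniv : ∀ t : Cm 0, F ⁻¹' {t} = univ := fun t => by
    ext y
    simp only [mem_preimage, mem_singleton_iff, mem_univ, iff_true]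
    exact Subsingleton.elim _ _
  refine ⟨WU Γ U, inferInstance, inferInstance, inferInstance, piU Γ U, S, ThE p F S, ∅,
    ⟨hRel, ?_, heq, ⟨y₀, e₀, he₀, ξ₀, hne₀⟩, ThE_isTh hG.cov⟩, ?_, IsMeagre.empty, ?_⟩
  · exact fun y e s' he _ hev => hclo y e s' he ‹_› hev
  · intro g hg
    have h1 : g = 1 := by
      have : (K.subgroupOf K).FiniteIndex := by
        rw [Subgroup.subgroupOf_self]
        infer_instance
      exact hNP.cent K le_rfl this g (Subsingleton.elim _ _) hg
    rw [h1, map_one]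
  · intro t _
    have hcon : IsConnected (F ⁻¹' {t}) := by
      rw [huniv]
      exact isConnected_univ
    have hregt : ∀ y, F y = t → Reg (n := n) p F y := fun y _ => hregall y
    obtain ⟨u, hu1, hu2⟩ := h619 n X w hw E Γ p hG C D KK hKw 0 F c B hB hc hreg f hf U
      hT Dm t hcon hregt
    refine ⟨u, ⟨?_, ?_, hu1⟩, ⟨?_, ?_⟩⟩
    · intro y e hy he
      obtain ⟨A', h1, h2⟩ := ThE_hol hG.cov hHolE hRE hRel.form he
        (reg_dFe hG.cov hHolE he (hregt y hy))
      exact ⟨A', h1, h2.mono fun y' h3 _ => h3⟩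
    · intro y e e' hy he he' ξ hξ
      exact ThE_change hG.cov hHolE hRE hRel.form he he' (hregt y hy) hξ
    · intro k hk y e hy he ξ hξ
      exact ThE_equi hG hHolE hc heq k he ξ
    · intro k hk
      exact hu2 k (hNP.sub k hk)

end Vale.Agent.P284.H501.Core
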